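import Vale.Agent.P134.Three

/-!
P134: monotone solutions which are almost periodic in all but three variables, or recurrent in all
but two variables, or symmetric in a block of two to four variables and recurrent in the others,
are one-dimensional.
-/

namespace Vale.Agent.Results.P134.RecurrentSymmetry

open InnerProductSpace
open scoped Laplacian
open Vale.Agent.P134

theorem result : ∀ (n : ℕ) (d : Fin n) (u : EuclideanSpace ℝ (Fin n) → ℝ),
    ContDiff ℝ 2 u → (∀ x, Δ u x = u x ^ 3 - u x) → (∀ x, |u x| ≤ 1) →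
    (∀ x, 0 < fderiv ℝ u x (EuclideanSpace.single d 1)) →
    ((∃ j k : Fin n, ∀ ε : ℝ, 0 < ε → ∃ L : ℝ,
        ∀ a : EuclideanSpace ℝ (Fin n), a d = 0 → a j = 0 → a k = 0 →
          ∃ b : EuclideanSpace ℝ (Fin n), b d = 0 ∧ b j = 0 ∧ b k = 0 ∧ ‖b - a‖ ≤ L ∧
            ∀ x, |u (x + b) - u x| ≤ ε) ∨
      (∃ j : Fin n, ∀ ε : ℝ, 0 < ε → ∀ R : ℝ, ∃ L : ℝ,
        ∀ a : EuclideanSpace ℝ (Fin n), a d = 0 → a j = 0 →
          ∃ b : EuclideanSpace ℝ (Fin n), b d = 0 ∧ b j = 0 ∧ ‖b - a‖ ≤ L ∧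
            ∀ x, ‖x‖ ≤ R → |u (x + b) - u x| ≤ ε) ∨
      ∃ S : Finset (Fin n), d ∉ S ∧ (S.card = 2 ∨ S.card = 3 ∨ S.card = 4) ∧
        (∀ x y : EuclideanSpace ℝ (Fin n), ∑ i ∈ S, x i ^ 2 = ∑ i ∈ S, y i ^ 2 →
          (∀ i, i ∉ S → x i = y i) → u x = u y) ∧
        ∀ ε : ℝ, 0 < ε → ∀ R : ℝ, ∃ L : ℝ,
          ∀ a : EuclideanSpace ℝ (Fin n), a d = 0 → (∀ i ∈ S, a i = 0) →
            ∃ b : EuclideanSpace ℝ (Fin n), b d = 0 ∧ (∀ i ∈ S, b i = 0) ∧ ‖b - a‖ ≤ L ∧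
              ∀ x, ‖x‖ ≤ R → |u (x + b) - u x| ≤ ε) →
    ∃ (e : EuclideanSpace ℝ (Fin n)) (h : ℝ → ℝ), ‖e‖ = 1 ∧ ∀ x, u x = h (inner ℝ e x) := by
  intro n d u hu heq hb hm hs
  classical
  have hsol := sol_pull hu heq hb hm
  have hprop : ∀ i, ∃ c, ∀ x, pd i (fun y => u ((coord n).symm y)) x =
      c * pd d (fun y => u ((coord n).symm y)) x := by
    rcases hs with ⟨j, k, hjk⟩ | ⟨j, hj⟩ | ⟨S, hdS, hk, hrad, hrec⟩
    · refine hsol.proportional3 (M := ({d, j, k} : Finset (Fin n))ᶜ) (by simp) ?_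
        (aper_pull fun ε hε => ?_)
      · rw [compl_compl]; exact Finset.card_le_three
      obtain ⟨L, hL⟩ := hjk ε hε
      refine ⟨L, fun a ha => ?_⟩
      obtain ⟨b, h1, h2, h3, h4, h5⟩ :=
        hL a (ha d (by simp)) (ha j (by simp)) (ha k (by simp))
      refine ⟨b, fun i hi => ?_, h4, h5⟩
      rw [Finset.mem_compl, not_not, Finset.mem_insert, Finset.mem_insert, Finset.mem_singleton] at hi
      rcases hi with rfl | rfl | rfl <;> assumption
    · refine hsol.proportional (Or.inl ⟨j, recurrent_pull fun ε hε R => ?_⟩)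
      obtain ⟨L, hL⟩ := hj ε hε R
      refine ⟨L, fun a ha => ?_⟩
      obtain ⟨b, h1, h2, h3, h4⟩ := hL a (ha d (by simp)) (ha j (by simp))
      refine ⟨b, fun i hi => ?_, h3, h4⟩
      rw [Finset.mem_compl, not_not, Finset.mem_insert, Finset.mem_singleton] at hi
      rcases hi with rfl | rfl <;> assumption
    · refine hsol.proportional (Or.inr ⟨S, hdS, ?_, fun y z h1 h2 => hrad _ _ h1 h2,
        recurrent_pull fun ε hε R => ?_⟩)
      · simpa using hk
      obtain ⟨L, hL⟩ := hrec ε hε R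
      refine ⟨L, fun a ha => ?_⟩
      obtain ⟨b, h1, h2, h3, h4⟩ := hL a (ha d (by simp)) fun i hi => ha i (by simp [hi])
      refine ⟨b, fun i hi => ?_, h3, h4⟩
      rw [Finset.mem_compl, not_not, Finset.mem_insert] at hi
      rcases hi with rfl | hi
      · exact h1
      · exact h2 i hi
  obtain ⟨c, hcd, hc⟩ := hsol.line hprop
  exact oneDim_pull hcd hc

end Vale.Agent.Results.P134.RecurrentSymmetry
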